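import Vale.Agent.P011.D4Z.H862.Orb
import Vale.Agent.P011.D4Z.H493.Clg
import Vale.Agent.P011.D4Y.H691.Top
import Vale.Agent.P011.D4Y.H69.NearI

/-!
Block D4Z, groups of noncyclic cubic extensions: the relation with `I`, the induction over the bad
places, and the end of the density argument.
-/

open Topology NumberField

set_option linter.unusedSectionVars false

namespace Vale.Agent.P011.D4Z.H714

open Vale.Agent.P011.MPQ Vale.Agent.P011.D4 Vale.Agent.P011.D4.Oct Vale.Agent.P011.D4X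
open Vale.Agent.P011.D4Y
open scoped ComplexConjugate

section im

variable {k E : Type} [Field k] [Field E] [Algebra k E] {ι : E ≃ₐ[k] E} {a b c : kˣ} [Algebra k ℂ]
  {W : E →ₐ[k] ℂ}

theorem ev_Im (x : OctL E a b c) : ev W (Im ι x) = star (ev (cmp W ι) x) := by
  rw [Im, ev_omap, ev_star]

/-- The matrices of a map which commutes with `I`. -/
theorem matW_Im {g : OctL E a b c →ₗ[E] OctL E a b c} (hg : ∀ x, g (Im ι x) = Im ι (g x))
    (x : OctL ℂ a b c) : act (matW (W : E →+* ℂ) g) (star x) =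
      star (act (matW (cmp W ι : E →+* ℂ) g) x) := by
  refine ev_induction (W := cmp W ι) (P := fun x => act (matW (W : E →+* ℂ) g) (star x) =
      star (act (matW (cmp W ι : E →+* ℂ) g) x)) (fun x => ?_) (fun x x' h h' => ?_)
    (fun t x h => ?_) x
  · rw [← ev_Im, act_matW, act_matW, hg, ev_Im]
  · rw [star_add, map_add, map_add, star_add, h, h']
  · rw [star_smul_oct, map_smul, map_smul, star_smul_oct, h]

variable {S : Set (E →+* ℂ)} {R : Subgroup (OctL E a b c ≃ₗ[E] OctL E a b c)}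
  {g : OctL E a b c ≃ₗ[E] OctL E a b c} {Y : S → Matrix (Fin 8) (Fin 8) ℂ}

theorem clg_Im_of (hW : (W : E →+* ℂ) ∈ S) (hW' : (cmp W ι : E →+* ℂ) ∈ S)
    (hR : ∀ z ∈ R, ∀ x, (z * g) (Im ι x) = Im ι ((z * g) x)) (hY : Y ∈ clg S R g)
    (x : OctL ℂ a b c) :
    act (Y ⟨W, hW⟩) (star x) = star (act (Y ⟨cmp W ι, hW'⟩) x) := by
  refine clg_induction (P := fun Y => act (Y ⟨W, hW⟩) (star x) =
      star (act (Y ⟨cmp W ι, hW'⟩) x)) ?_ (fun z hz => ?_) hY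
  · exact CO.isClosed (co_act hW _) (CO.star (co_act hW' x))
  · exact matW_Im (W := W) (g := ((z * g : OctL E a b c ≃ₗ[E] OctL E a b c) :
      OctL E a b c →ₗ[E] OctL E a b c)) (hR z hz) x

/-- If the matrix at `W` is one, then the matrix at `W ∘ ι` is one. -/
theorem one_of_Im (hW : (W : E →+* ℂ) ∈ S) (hW' : (cmp W ι : E →+* ℂ) ∈ S)
    (hR : ∀ z ∈ R, ∀ x, (z * g) (Im ι x) = Im ι ((z * g) x)) (hY : Y ∈ clg S R g)
    (h1 : Y ⟨W, hW⟩ = 1) : Y ⟨cmp W ι, hW'⟩ = 1 := by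
  refine act_inj (a := up ℂ a) (b := up ℂ b) (c := up ℂ c) fun x => ?_
  have h2 := clg_Im_of hW hW' hR hY x
  rw [h1, act_one] at h2
  rw [act_one]
  have h3 := congrArg star h2
  rwa [star_star, star_star, eq_comm] at h3

end im

section orb

variable {k L E : Type} [Field k] [NumberField k] [Field L] [Field E] [Algebra k L] [Algebra k E]
  [Algebra L E] [IsScalarTower k L E] [NeZero (2 : E)] {ρ σ ι : E ≃ₐ[k] E} {α : E}
  {a b c : kˣ} {q : Lˣ} (H : HyI ρ σ ι α a b c q)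

include H

/-- The group is generated by `ρ`, `σ`, `ι`. -/
theorem closure_eq_top : Subgroup.closure ({ρ, σ, ι} : Set (E ≃ₐ[k] E)) = ⊤ ∧ IsGalois k E := by
  have := H.finite
  have h1 : IntermediateField.fixedField (Subgroup.closure ({ρ, σ, ι} : Set (E ≃ₐ[k] E))) = ⊥ := by
    rw [eq_bot_iff]
    intro x hx
    rw [IntermediateField.mem_fixedField_iff] at hx
    obtain ⟨t, rfl⟩ := H.fixk x (hx ρ (Subgroup.subset_closure (by simp)))
      (hx σ (Subgroup.subset_closure (by simp))) (hx ι (Subgroup.subset_closure (by simp)))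
    exact IntermediateField.algebraMap_mem _ t
  have h2 : Subgroup.closure ({ρ, σ, ι} : Set (E ≃ₐ[k] E)) = ⊤ := by
    have h3 := IntermediateField.fixingSubgroup_fixedField
      (Subgroup.closure ({ρ, σ, ι} : Set (E ≃ₐ[k] E)))
    rw [h1, IntermediateField.fixingSubgroup_bot] at h3
    exact h3.symm
  refine ⟨h2, ?_⟩
  rw [h2] at h1
  exact IsGalois.of_fixedField_eq_bot k E h1

/-- The embeddings over one embedding of `k` are conjugate. -/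
theorem exists_cmp [Algebra k ℂ] (W V : E →ₐ[k] ℂ) : ∃ γ : E ≃ₐ[k] E, V = cmp W γ := by
  classical
  have := H.finite
  obtain ⟨-, hG⟩ := closure_eq_top H
  have hf : Function.Injective fun γ : E ≃ₐ[k] E => cmp W γ := by
    intro γ γ' h
    apply AlgEquiv.ext
    intro x
    have h1 := congrArg (fun F : E →ₐ[k] ℂ => F x) h
    exact W.injective h1
  have hcard : Fintype.card (E ≃ₐ[k] E) = Fintype.card (E →ₐ[k] ℂ) := by
    rw [AlgHom.card, ← IsGalois.card_aut_eq_finrank, Nat.card_eq_fintype_card]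
  obtain ⟨γ, hγ⟩ := ((Fintype.bijective_iff_injective_and_card _).2 ⟨hf, hcard⟩).2 V
  exact ⟨γ, hγ.symm⟩

/-- The place of type one in an orbit. -/
theorem exists_type_oneI {V : E →+* ℂ} (hV : V ∈ Bd ρ σ q) :
    ∃ W ∈ Bd ρ σ q, W.comp (algebraMap k E) = V.comp (algebraMap k E) ∧
      (W (algebraMap L E q)).re < 0 ∧ 0 < (W (ρ (algebraMap L E q))).re ∧
      (W (ρ (ρ (algebraMap L E q)))).re < 0 := by
  have hs : ∀ x, σ x = x → ∃ r : ℝ, V x = r := by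
    intro x hx
    exact ⟨(V x).re, Complex.ext rfl (by rw [Bd_im hV hx, Complex.ofReal_im])⟩
  have h3 := H.hq
  set t := algebraMap L E q with ht
  have h0 : σ t = t := H.σL _
  have h1 : σ (ρ t) = ρ t := by rw [H.comm, h0]
  have h2 : σ (ρ (ρ t)) = ρ (ρ t) := by rw [H.comm, h1]
  obtain ⟨r0, e0⟩ := hs _ h0
  obtain ⟨r1, e1⟩ := hs _ h1
  obtain ⟨r2, e2⟩ := hs _ h2
  have hN : r0 * r1 * r2 = 1 := by
    have h4 := congrArg V h3
    rw [map_mul, map_mul, map_one] at h4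
    rw [e0, e1, e2] at h4
    exact_mod_cast h4
  have hb := hV.2
  rw [← ht, e0, e1, e2, Complex.ofReal_re, Complex.ofReal_re, Complex.ofReal_re] at hb
  have n0 : r0 ≠ 0 := by rintro rfl; simp at hN
  have n1 : r1 ≠ 0 := by rintro rfl; simp at hN
  have n2 : r2 ≠ 0 := by rintro rfl; simp at hN
  have c1 := BdI_rho H V hV
  have c2 := BdI_rho H _ c1
  have k1 : ∀ W : E →+* ℂ, (W.comp (ρ : E →+* E)).comp (algebraMap k E) =
      W.comp (algebraMap k E) := by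
    intro W
    ext x
    change W (ρ (algebraMap k E x)) = W (algebraMap k E x)
    rw [AlgEquiv.commutes]
  rcases lt_or_gt_of_ne n0 with g0 | g0 <;> rcases lt_or_gt_of_ne n1 with g1 | g1 <;>
    rcases lt_or_gt_of_ne n2 with g2 | g2
  · exfalso
    have : r0 * r1 * r2 < 0 := mul_neg_of_pos_of_neg (mul_pos_of_neg_of_neg g0 g1) g2
    linarith
  · refine ⟨_, c1, k1 V, ?_, ?_, ?_⟩
    · change (V (ρ t)).re < 0
      rw [e1, Complex.ofReal_re]; exact g1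
    · change 0 < (V (ρ (ρ t))).re
      rw [e2, Complex.ofReal_re]; exact g2
    · change (V (ρ (ρ (ρ t)))).re < 0
      rw [H.ρ3, e0, Complex.ofReal_re]; exact g0
  · refine ⟨V, hV, rfl, ?_, ?_, ?_⟩
    · rw [e0, Complex.ofReal_re]; exact g0
    · rw [e1, Complex.ofReal_re]; exact g1
    · rw [e2, Complex.ofReal_re]; exact g2
  · exfalso
    have : r0 * r1 * r2 < 0 := mul_neg_of_neg_of_pos (mul_neg_of_neg_of_pos g0 g1) g2
    linarith
  · refine ⟨_, c2, by rw [k1, k1], ?_, ?_, ?_⟩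
    · change (V (ρ (ρ t))).re < 0
      rw [e2, Complex.ofReal_re]; exact g2
    · change 0 < (V (ρ (ρ (ρ t)))).re
      rw [H.ρ3, e0, Complex.ofReal_re]; exact g0
    · change (V (ρ (ρ (ρ (ρ t))))).re < 0
      rw [H.ρ3, e1, Complex.ofReal_re]; exact g1
  · exfalso
    have : r0 * r1 * r2 < 0 := mul_neg_of_neg_of_pos (mul_neg_of_pos_of_neg g0 g1) g2
    linarith
  · exfalso
    have : r0 * r1 * r2 < 0 := mul_neg_of_pos_of_neg (mul_pos g0 g1) g2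
    linarith
  · exact absurd ⟨g0, g1, g2⟩ hb

/-- A family which is one at `W`, `W ∘ ρ`, `W ∘ ρ²` is one at all embeddings over the same
embedding of `k`. -/
theorem one_orbit [Algebra k ℂ] {R : Subgroup (OctL E a b c ≃ₗ[E] OctL E a b c)}
    {g : OctL E a b c ≃ₗ[E] OctL E a b c}
    (hR : ∀ z ∈ R, ∀ x, (z * g) (Im ι x) = Im ι ((z * g) x))
    {Y : Bd ρ σ q → Matrix (Fin 8) (Fin 8) ℂ} (hY : Y ∈ clg (Bd ρ σ q) R g) (W : E →ₐ[k] ℂ)
    (y0 : ∀ h : (W : E →+* ℂ) ∈ Bd ρ σ q, Y ⟨W, h⟩ = 1)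
    (y1 : ∀ h : (cmp W ρ : E →+* ℂ) ∈ Bd ρ σ q, Y ⟨cmp W ρ, h⟩ = 1)
    (y2 : ∀ h : (cmp (cmp W ρ) ρ : E →+* ℂ) ∈ Bd ρ σ q, Y ⟨cmp (cmp W ρ) ρ, h⟩ = 1)
    (V : E →ₐ[k] ℂ) (hV : (V : E →+* ℂ) ∈ Bd ρ σ q) : Y ⟨V, hV⟩ = 1 := by
  let T : (E →ₐ[k] ℂ) → Prop := fun V => ∀ h : (V : E →+* ℂ) ∈ Bd ρ σ q, Y ⟨V, h⟩ = 1
  have hTσ : ∀ V, T V → T (cmp V σ) := by
    intro V hV h
    have e : cmp (cmp V σ) σ = V := AlgHom.ext fun x => congrArg V (H.σ2 x)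
    have h1 : (V : E →+* ℂ) ∈ Bd ρ σ q := by
      have h2 := BdI_sig H _ h
      have h3 : ((cmp V σ : E →+* ℂ).comp (σ : E →+* E)) = (V : E →+* ℂ) :=
        RingHom.ext fun x => congrArg V (H.σ2 x)
      rwa [h3] at h2
    have h8 := H862.clg_conj hY (V := ⟨V, h1⟩) (V' := ⟨cmp V σ, h⟩) (fun x => h1.1 x)
    rw [h8, hV h1]
    ext i j
    rw [Matrix.map_apply, Matrix.one_apply]
    split_ifs <;> simp
  have hTι : ∀ V, T V → T (cmp V ι) := by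
    intro V hV h
    have h1 : (V : E →+* ℂ) ∈ Bd ρ σ q := by
      have h2 := BdI_iota H _ h
      have h3 : ((cmp V ι : E →+* ℂ).comp (ι : E →+* E)) = (V : E →+* ℂ) :=
        RingHom.ext fun x => congrArg V (H.ι2 x)
      rwa [h3] at h2
    exact one_of_Im h1 h hR hY (hV h1)
  let T3 : (E →ₐ[k] ℂ) → Prop := fun V => T V ∧ T (cmp V ρ) ∧ T (cmp (cmp V ρ) ρ)
  have eρ : ∀ V : E →ₐ[k] ℂ, cmp (cmp (cmp V ρ) ρ) ρ = V := fun V =>
    AlgHom.ext fun x => congrArg V (H.ρ3 x)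
  have eσ : ∀ V : E →ₐ[k] ℂ, cmp (cmp V σ) σ = V := fun V =>
    AlgHom.ext fun x => congrArg V (H.σ2 x)
  have eι : ∀ V : E →ₐ[k] ℂ, cmp (cmp V ι) ι = V := fun V =>
    AlgHom.ext fun x => congrArg V (H.ι2 x)
  have eσρ : ∀ V : E →ₐ[k] ℂ, cmp (cmp V σ) ρ = cmp (cmp V ρ) σ := fun V =>
    AlgHom.ext fun x => congrArg V (H.comm x)
  have eιρ : ∀ V : E →ₐ[k] ℂ, cmp (cmp V ι) ρ = cmp (cmp (cmp V ρ) ρ) ι := fun V =>
    AlgHom.ext fun x => congrArg V (H.ιρ x)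
  have eιρρ : ∀ V : E →ₐ[k] ℂ, cmp (cmp (cmp V ι) ρ) ρ = cmp (cmp V ρ) ι := fun V => by
    rw [eιρ, eιρ, eρ]
  have r1 : ∀ V, T3 V → T3 (cmp V ρ) := by
    rintro V ⟨h0, h1, h2⟩
    refine ⟨h1, h2, ?_⟩
    rw [eρ]
    exact h0
  have s1 : ∀ V, T3 V → T3 (cmp V σ) := by
    rintro V ⟨h0, h1, h2⟩
    refine ⟨hTσ _ h0, ?_, ?_⟩
    · rw [eσρ]
      exact hTσ _ h1
    · rw [eσρ, eσρ]
      exact hTσ _ h2
  have i1 : ∀ V, T3 V → T3 (cmp V ι) := by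
    rintro V ⟨h0, h1, h2⟩
    refine ⟨hTι _ h0, ?_, ?_⟩
    · rw [eιρ]
      exact hTι _ h2
    · rw [eιρρ]
      exact hTι _ h1
  have key : ∀ γ ∈ Subgroup.closure ({ρ, σ, ι} : Set (E ≃ₐ[k] E)), ∀ V : E →ₐ[k] ℂ,
      T3 V ↔ T3 (cmp V γ) := by
    intro γ hγ
    induction hγ using Subgroup.closure_induction with
    | mem γ hγ =>
      intro V
      rcases hγ with rfl | rfl | rfl
      · exact ⟨r1 V, fun h => by
          have h1 := r1 _ (r1 _ h)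
          rwa [eρ] at h1⟩
      · exact ⟨s1 V, fun h => by
          have h1 := s1 _ h
          rwa [eσ] at h1⟩
      · exact ⟨i1 V, fun h => by
          have h1 := i1 _ h
          rwa [eι] at h1⟩
    | one => exact fun V => Iff.rfl
    | mul γ γ' _ _ h h' => exact fun V => (h V).trans (h' (cmp V γ))
    | inv γ _ h =>
      intro V
      have h1 := h (cmp V γ⁻¹)
      have h2 : cmp (cmp V γ⁻¹) γ = V := AlgHom.ext fun x => congrArg V (γ.symm_apply_apply x)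
      rw [h2] at h1
      exact h1.symm
  obtain ⟨γ, rfl⟩ := exists_cmp H W V
  exact ((key γ (by rw [(closure_eq_top H).1]; exact Subgroup.mem_top _) W).1 ⟨y0, y1, y2⟩).1 hV

/-- **The induction over the places.** -/
theorem outerI {R : Subgroup (OctL E a b c ≃ₗ[E] OctL E a b c)}
    {g : OctL E a b c ≃ₗ[E] OctL E a b c}
    (hR : ∀ z ∈ R, ∀ x, (z * g) (Im ι x) = Im ι ((z * g) x))
    (hone : ∀ (_ : Algebra k ℂ) (W : E →ₐ[k] ℂ) (hW : (W : E →+* ℂ) ∈ Bd ρ σ q)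
      (hW' : (cmp W ρ : E →+* ℂ) ∈ Bd ρ σ q) (hW'' : (cmp (cmp W ρ) ρ : E →+* ℂ) ∈ Bd ρ σ q),
      (W (algebraMap L E q)).re < 0 → 0 < (W (ρ (algebraMap L E q))).re →
      ∀ Y ∈ clg (Bd ρ σ q) R g, ∃ Y' ∈ clg (Bd ρ σ q) R g, Y' ⟨W, hW⟩ = 1 ∧
        Y' ⟨cmp W ρ, hW'⟩ = 1 ∧ Y' ⟨cmp (cmp W ρ) ρ, hW''⟩ = 1 ∧
        ∀ V : Bd ρ σ q, V.1.comp (algebraMap k E) ≠ algebraMap k ℂ → Y' V = Y V)
    {Y0 : Bd ρ σ q → Matrix (Fin 8) (Fin 8) ℂ} (hY0 : Y0 ∈ clg (Bd ρ σ q) R g) :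
    (1 : Bd ρ σ q → Matrix (Fin 8) (Fin 8) ℂ) ∈ clg (Bd ρ σ q) R g := by
  classical
  have key : ∀ T : Finset (k →+* ℂ), ∃ Y ∈ clg (Bd ρ σ q) R g,
      ∀ V : Bd ρ σ q, V.1.comp (algebraMap k E) ∈ T → Y V = 1 := by
    intro T
    induction T using Finset.induction_on with
    | empty => exact ⟨Y0, hY0, fun V hV => absurd hV (Finset.notMem_empty _)⟩
    | insert τ T hτ ih =>
      obtain ⟨Y, hY, hY1⟩ := ih
      by_cases hex : ∃ V : Bd ρ σ q, V.1.comp (algebraMap k E) = τ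
      · obtain ⟨⟨V0, hV0⟩, hV0τ⟩ := hex
        obtain ⟨W0, hW0, hW0τ, g0, g1, -⟩ := exists_type_oneI H hV0
        have hτ0 : W0.comp (algebraMap k E) = τ := hW0τ.trans hV0τ
        let iA : Algebra k ℂ := τ.toAlgebra
        let W : E →ₐ[k] ℂ := ⟨W0, fun x => RingHom.congr_fun hτ0 x⟩
        have hWc : (W : E →+* ℂ) = W0 := rfl
        have hW : (W : E →+* ℂ) ∈ Bd ρ σ q := by rw [hWc]; exact hW0
        have hW' : (cmp W ρ : E →+* ℂ) ∈ Bd ρ σ q := BdI_rho H W0 hW0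
        have hW'' : (cmp (cmp W ρ) ρ : E →+* ℂ) ∈ Bd ρ σ q := BdI_rho H _ (BdI_rho H W0 hW0)
        obtain ⟨Y', hY', y0, y1, y2, y3⟩ := hone iA W hW hW' hW'' g0 g1 Y hY
        refine ⟨Y', hY', ?_⟩
        rintro ⟨V, hV⟩ hVT
        by_cases hVτ : V.comp (algebraMap k E) = τ
        · let V1 : E →ₐ[k] ℂ := ⟨V, fun x => RingHom.congr_fun hVτ x⟩
          exact one_orbit H hR hY' W (fun _ => y0) (fun _ => y1) (fun _ => y2) V1 hV
        · rw [y3 ⟨V, hV⟩ hVτ]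
          exact hY1 ⟨V, hV⟩ ((Finset.mem_insert.1 hVT).resolve_left hVτ)
      · refine ⟨Y, hY, fun V hV => ?_⟩
        rcases Finset.mem_insert.1 hV with h3 | h3
        · exact absurd ⟨V, h3⟩ hex
        · exact hY1 V h3
  obtain ⟨Y, hY, hY1⟩ := key Finset.univ
  have h2 : Y = 1 := funext fun V => hY1 V (Finset.mem_univ _)
  rwa [h2] at hY

end orb

section spec

variable {k L E : Type} [Field k] [NumberField k] [Field L] [NumberField L] [Field E]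
  [Algebra k L] [Algebra k E] [Algebra L E]
  [IsScalarTower k L E] [NeZero (2 : E)] {ρ σ ι : E ≃ₐ[k] E} {α : E}
  {a b c : kˣ} {q : Lˣ}

theorem GTI_le_GT : GTI ρ σ ι α a b c q ≤ GT ρ σ α a b c q := fun _ h => ⟨h.1, h.2.1⟩

variable (H : HyI ρ σ ι α a b c q)

include H

/-- The maps `z g` commute with `I`. -/
theorem mul_Im {g : OctL E a b c ≃ₗ[E] OctL E a b c} (hg : g ∈ GTI ρ σ ι α a b c q) :
    ∀ z ∈ RsI ρ σ ι α a b c q, ∀ x, (z * g) (Im ι x) = Im ι ((z * g) x) :=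
  fun _ hz => ((GTI ρ σ ι α a b c q).mul_mem (RsI_le hz) hg).2.2

theorem GTI_bil {g : OctL E a b c ≃ₗ[E] OctL E a b c} (hg : g ∈ GTI ρ σ ι α a b c q)
    (x y : OctL E a b c) : Oct.bil (g x) (g y) = Oct.bil x y := by
  have h1 : IsKap ρ g (1 : Lˣ) := by
    intro x y
    rw [hg.1]
    simp
  have h2 := bil_kap H.ρ3 h1 x y
  simpa using h2

theorem clg_bilI [Algebra k ℂ] (W : E →ₐ[k] ℂ) (hW : (W : E →+* ℂ) ∈ Bd ρ σ q)
    {g : OctL E a b c ≃ₗ[E] OctL E a b c} (hg : g ∈ GTI ρ σ ι α a b c q)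
    {Y : Bd ρ σ q → Matrix (Fin 8) (Fin 8) ℂ}
    (hY : Y ∈ clg (Bd ρ σ q) (RsI ρ σ ι α a b c q) g) (x y : OctL ℂ a b c) :
    bil (act (Y ⟨W, hW⟩) x) (act (Y ⟨W, hW⟩) y) = bil x y :=
  clg_bil_of hW (fun _ hz => GTI_bil H ((GTI ρ σ ι α a b c q).mul_mem (RsI_le hz) hg)) hY x y

omit H

theorem clg_JI [Algebra k ℂ] (W : E →ₐ[k] ℂ) (hW : (W : E →+* ℂ) ∈ Bd ρ σ q)
    {g : OctL E a b c ≃ₗ[E] OctL E a b c} (hg : g ∈ GTI ρ σ ι α a b c q)
    {Y : Bd ρ σ q → Matrix (Fin 8) (Fin 8) ℂ}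
    (hY : Y ∈ clg (Bd ρ σ q) (RsI ρ σ ι α a b c q) g) (x : OctL ℂ a b c) :
    act (Y ⟨W, hW⟩) (JW W ρ α q x) = JW W ρ α q (act (Y ⟨W, hW⟩) x) :=
  clg_J_of hW hW.1 (fun _ hz => ((GTI ρ σ ι α a b c q).mul_mem (RsI_le hz) hg).2.1) hY x

theorem clg_triI [Algebra k ℂ] (W W' W'' : E →ₐ[k] ℂ) (hW : (W : E →+* ℂ) ∈ Bd ρ σ q)
    (hW' : (W' : E →+* ℂ) ∈ Bd ρ σ q) (hW'' : (W'' : E →+* ℂ) ∈ Bd ρ σ q)
    (h' : W' = cmp W ρ) (h'' : W'' = cmp W' ρ)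
    {g : OctL E a b c ≃ₗ[E] OctL E a b c} (hg : g ∈ GTI ρ σ ι α a b c q)
    {Y : Bd ρ σ q → Matrix (Fin 8) (Fin 8) ℂ}
    (hY : Y ∈ clg (Bd ρ σ q) (RsI ρ σ ι α a b c q) g) (x y : OctL ℂ a b c) :
    act (Y ⟨W, hW⟩) (star x * star y) =
      star (act (Y ⟨W', hW'⟩) x) * star (act (Y ⟨W'', hW''⟩) y) :=
  clg_tri_of hW hW' hW'' h' h''
    (fun _ hz => ((GTI ρ σ ι α a b c q).mul_mem (RsI_le hz) hg).1) hY x y

include H

/-- The end. -/
theorem mem_of_oneI (hX : ∀ τ : k →+* ℝ, τ a < 0 → τ b < 0 ∧ τ c < 0) (ho : HOdd a q)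
    {g : OctL E a b c ≃ₗ[E] OctL E a b c} (hg : g ∈ GTI ρ σ ι α a b c q)
    (h1 : (1 : Bd ρ σ q → Matrix (Fin 8) (Fin 8) ℂ) ∈
      clg (Bd ρ σ q) (RsI ρ σ ι α a b c q) g) : g ∈ RsI ρ σ ι α a b c q :=
  mem_of_one_of (BdI_finite H) RsI_le (D4Y.open_top H hX ho) hg h1

end spec

end Vale.Agent.P011.D4Z.H714
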